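import Vale.Agent.P235.H141.Star.Defs

/-!
# P235 [STAR]: marked edge sums without deletions

Every `MSum` is contained in an `MSum0` on the same vertex set (`super : SuperStmt`).
-/

set_option autoImplicit false

namespace Vale.Agent.P235.H29.Star

open Vale.Agent.P235 Vale.Agent.P235.H141.Star

theorem le_of_mSum0 {P : ∀ (V : Type), SimpleGraph V → SimpleGraph V → Prop} {V : Type}
    {G E : SimpleGraph V} (h : MSum0 P G E) : E ≤ G := by
  cases h with
  | base h _ => exact h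
  | glue h _ _ _ _ _ _ => exact h

/-- a marked edge sum with no mark is a base piece -/
theorem base_of_no_edge {P : ∀ (V : Type), SimpleGraph V → SimpleGraph V → Prop} {V : Type}
    {G E : SimpleGraph V} (h : MSum0 P G E) (hE : ∀ u v, ¬ E.Adj u v) : P V G E := by
  cases h with
  | base _ h => exact h
  | glue _ h _ _ _ _ _ => exact absurd h (hE _ _)

/-- the union of a graph on `A` and a graph on `B` -/
def join {V : Type} (A B : Set V) (GA : SimpleGraph A) (GB : SimpleGraph B) : SimpleGraph V where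
  Adj u v := (∃ (hu : u ∈ A) (hv : v ∈ A), GA.Adj ⟨u, hu⟩ ⟨v, hv⟩) ∨
    ∃ (hu : u ∈ B) (hv : v ∈ B), GB.Adj ⟨u, hu⟩ ⟨v, hv⟩
  symm := ⟨fun u v h => by
    rcases h with ⟨hu, hv, h⟩ | ⟨hu, hv, h⟩
    · exact Or.inl ⟨hv, hu, h.symm⟩
    · exact Or.inr ⟨hv, hu, h.symm⟩⟩
  loopless := ⟨fun u h => by
    rcases h with ⟨hu, hv, h⟩ | ⟨hu, hv, h⟩
    · exact GA.loopless.irrefl _ h
    · exact GB.loopless.irrefl _ h⟩

theorem join_adj {V : Type} {A B : Set V} {GA : SimpleGraph A} {GB : SimpleGraph B} {u v : V} :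
    (join A B GA GB).Adj u v ↔ (∃ (hu : u ∈ A) (hv : v ∈ A), GA.Adj ⟨u, hu⟩ ⟨v, hv⟩) ∨
      ∃ (hu : u ∈ B) (hv : v ∈ B), GB.Adj ⟨u, hu⟩ ⟨v, hv⟩ := Iff.rfl

/-- the join restricted to `A` is the graph on `A`, if the two vertices in common form an edge -/
theorem join_induce_left {V : Type} {A B : Set V} {GA : SimpleGraph A} {GB : SimpleGraph B}
    {s t : V} (hAB : A ∩ B = {s, t}) (hs : s ∈ A) (ht : t ∈ A) (hst : GA.Adj ⟨s, hs⟩ ⟨t, ht⟩) :
    (join A B GA GB).induce A = GA := by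
  ext ⟨u, hu⟩ ⟨v, hv⟩
  constructor
  · intro h
    rcases (join_adj.1 h) with ⟨_, _, h⟩ | ⟨hu', hv', h⟩
    · exact h
    · have h1 : u ∈ ({s, t} : Set V) := hAB ▸ ⟨hu, hu'⟩
      have h2 : v ∈ ({s, t} : Set V) := hAB ▸ ⟨hv, hv'⟩
      have hne : u ≠ v := by
        rintro rfl
        exact GB.loopless.irrefl _ h
      rcases h1 with rfl | h1 <;> rcases h2 with h2 | h2
      · exact absurd h2.symm hne
      · obtain rfl : v = t := h2
        exact hst
      · obtain rfl : u = t := h1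
        subst h2
        exact hst.symm
      · obtain rfl : u = t := h1
        obtain rfl : v = u := h2
        exact absurd rfl hne
  · intro h
    exact Or.inl ⟨hu, hv, h⟩

theorem join_comm {V : Type} {A B : Set V} (GA : SimpleGraph A) (GB : SimpleGraph B) :
    join A B GA GB = join B A GB GA := by
  ext u v
  exact or_comm

theorem join_induce_right {V : Type} {A B : Set V} {GA : SimpleGraph A} {GB : SimpleGraph B}
    {s t : V} (hAB : A ∩ B = {s, t}) (hs : s ∈ B) (ht : t ∈ B) (hst : GB.Adj ⟨s, hs⟩ ⟨t, ht⟩) :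
    (join A B GA GB).induce B = GB := by
  rw [join_comm]
  exact join_induce_left (by rw [Set.inter_comm]; exact hAB) hs ht hst

theorem join_mono {V : Type} {A B : Set V} {GA GA' : SimpleGraph A} {GB GB' : SimpleGraph B}
    (h1 : GA ≤ GA') (h2 : GB ≤ GB') : join A B GA GB ≤ join A B GA' GB' := by
  intro u v h
  rcases h with ⟨hu, hv, h⟩ | ⟨hu, hv, h⟩
  · exact Or.inl ⟨hu, hv, h1 h⟩
  · exact Or.inr ⟨hu, hv, h2 h⟩

/-- a graph without edges between `A \ B` and `B \ A` is contained in the join -/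
theorem le_join {V : Type} {G : SimpleGraph V} {A B : Set V} {GA : SimpleGraph A}
    {GB : SimpleGraph B} (hU : A ∪ B = Set.univ)
    (hsep : ∀ a b, a ∉ B → b ∉ A → ¬ G.Adj a b)
    (h1 : G.induce A ≤ GA) (h2 : G.induce B ≤ GB) : G ≤ join A B GA GB := by
  intro u v h
  by_cases hA : u ∈ A ∧ v ∈ A
  · exact Or.inl ⟨hA.1, hA.2, h1 (show (G.induce A).Adj ⟨u, hA.1⟩ ⟨v, hA.2⟩ from h)⟩
  · by_cases hB : u ∈ B ∧ v ∈ B
    · exact Or.inr ⟨hB.1, hB.2, h2 (show (G.induce B).Adj ⟨u, hB.1⟩ ⟨v, hB.2⟩ from h)⟩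
    · exfalso
      have hu : u ∈ A ∪ B := by rw [hU]; trivial
      have hv : v ∈ A ∪ B := by rw [hU]; trivial
      rcases hu with hu | hu <;> rcases hv with hv | hv
      · exact hA ⟨hu, hv⟩
      · have h3 : u ∉ B := fun h' => hB ⟨h', hv⟩
        have h4 : v ∉ A := fun h' => hA ⟨hu, h'⟩
        exact hsep u v h3 h4 h
      · have h3 : v ∉ B := fun h' => hB ⟨hu, h'⟩
        have h4 : u ∉ A := fun h' => hA ⟨h', hv⟩
        exact hsep v u h3 h4 h.symm
      · exact hB ⟨hu, hv⟩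

/-- **every marked edge sum is contained in one without deletions** -/
theorem exists_super {P : ∀ (V : Type), SimpleGraph V → SimpleGraph V → Prop} {V : Type}
    {G' E' : SimpleGraph V} (h : MSum P G' E') :
    ∃ G E : SimpleGraph V, G' ≤ G ∧ E' ≤ E ∧ E ≤ G ∧ MSum0 P G E := by
  induction h with
  | base h1 h2 => exact ⟨_, _, le_rfl, le_rfl, h1, MSum0.base h1 h2⟩
  | del _ h1 h2 _ ih =>
    obtain ⟨G, E, hG, hE, hEG, h⟩ := ih
    exact ⟨G, E, h1.trans hG, h2.trans hE, hEG, h⟩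
  | @glue V G E A B s t hEG hst hU hAB hsep _ _ ihA ihB =>
    obtain ⟨GA, EA, hGA, hEA, hEGA, hA⟩ := ihA
    obtain ⟨GB, EB, hGB, hEB, hEGB, hB⟩ := ihB
    have hs : s ∈ A ∩ B := by rw [hAB]; exact Or.inl rfl
    have ht : t ∈ A ∩ B := by rw [hAB]; exact Or.inr rfl
    have hstA : EA.Adj ⟨s, hs.1⟩ ⟨t, ht.1⟩ :=
      hEA (show (E.induce A).Adj ⟨s, hs.1⟩ ⟨t, ht.1⟩ from hst)
    have hstB : EB.Adj ⟨s, hs.2⟩ ⟨t, ht.2⟩ :=
      hEB (show (E.induce B).Adj ⟨s, hs.2⟩ ⟨t, ht.2⟩ from hst)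
    have eGA : (join A B GA GB).induce A = GA := join_induce_left hAB _ _ (hEGA hstA)
    have eGB : (join A B GA GB).induce B = GB := join_induce_right hAB _ _ (hEGB hstB)
    have eEA : (join A B EA EB).induce A = EA := join_induce_left hAB _ _ hstA
    have eEB : (join A B EA EB).induce B = EB := join_induce_right hAB _ _ hstB
    refine ⟨join A B GA GB, join A B EA EB, le_join hU hsep hGA hGB, ?_, join_mono hEGA hEGB, ?_⟩
    · exact le_join hU (fun a b ha hb h => hsep a b ha hb (hEG h)) hEA hEB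
    · refine MSum0.glue (A := A) (B := B) (s := s) (t := t) (join_mono hEGA hEGB)
        (Or.inl ⟨hs.1, ht.1, hstA⟩) hU hAB ?_ ?_ ?_
      · intro a b ha hb h
        rcases h with ⟨_, hb', _⟩ | ⟨ha', _, _⟩
        · exact hb hb'
        · exact ha ha'
      · rw [eGA, eEA]; exact hA
      · rw [eGB, eEB]; exact hB

/-- **[A1]** -/
theorem super : SuperStmt := by
  intro P V G' E' h
  obtain ⟨G, E, h1, h2, _, h3⟩ := exists_super h
  exact ⟨G, E, h1, h2, h3⟩

end Vale.Agent.P235.H29.Star
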